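import Vale.Agent.P092RD.Pom3
import Vale.Agent.P092CP.L2

/-!
P092 (helper44): traces per unit volume of a subgroup of the source.
-/

set_option linter.all false

open scoped InnerProductSpace ENNReal NNReal
open MeasureTheory Filter Topology ContinuousLinearMap Set

namespace Vale.Agent.P092RE

open Vale.Agent.P092CP Vale.Agent.P092RD
open Vale.Agent.P092.RC (Cm)

variable {G G' K : Type} [Group G] [TopologicalSpace G] [IsTopologicalGroup G]
  [LocallyCompactSpace G] [SecondCountableTopology G] [T2Space G] [MeasurableSpace G] [BorelSpace G]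
  [Group G'] [TopologicalSpace G'] [IsTopologicalGroup G'] [LocallyCompactSpace G']
  [SecondCountableTopology G'] [T2Space G'] [MeasurableSpace G'] [BorelSpace G']
  [NormedAddCommGroup K] [InnerProductSpace ℂ K] [CompleteSpace K] {μ : Measure G}
  [μ.IsHaarMeasure] {μ' : Measure G'} [μ'.IsHaarMeasure] {W : Set (K →L[ℂ] K)}
  {N : Type} [MeasurableSpace N] {ν : Measure N} {i : N → G} {A T b b₁ b₂ : K →L[ℂ] K}
  {c : ℝ≥0∞}

/-- the integral of the translates of `b* b` is at most `c` -/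
def Up (S : Side μ W) (ν : Measure N) (i : N → G) (b : K →L[ℂ] K) (c : ℝ≥0∞) : Prop :=
  ∀ ξ, ∫⁻ n, ‖b (S.π (i n) ξ)‖ₑ ^ 2 ∂ν ≤ c * ‖ξ‖ₑ ^ 2

/-- the integral of the translates of `b* b` is at least `c A* A` -/
def Lo (S : Side μ W) (ν : Measure N) (i : N → G) (b : K →L[ℂ] K) (c : ℝ≥0∞) (A : K →L[ℂ] K) :
    Prop :=
  ∀ ξ, c * ‖A ξ‖ₑ ^ 2 ≤ ∫⁻ n, ‖b (S.π (i n) ξ)‖ₑ ^ 2 ∂ν

theorem cont₂ (S : Side μ W) : Continuous fun q : G × K => S.π q.1 q.2 :=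
  continuous_prod_of_continuous_lipschitzWith' _ 1
    (fun g => LipschitzWith.of_dist_le_mul fun ξ η => by
      rw [dist_eq_norm, dist_eq_norm, ← map_sub, S.norm_π, NNReal.coe_one, one_mul]) S.cont

theorem meas₂ (S : Side μ W) (S' : Side μ' W) (hi : Measurable i) (b T : K →L[ℂ] K) :
    Measurable fun q : N × G' => ‖b (S.π (i q.1) (T (S'.π q.2 S'.Ω)))‖ₑ ^ 2 := by
  have h1 : Continuous fun q : G × G' => ‖b (S.π q.1 (T (S'.π q.2 S'.Ω)))‖ₑ :=
    (b.continuous.comp ((cont₂ S).comp (continuous_fst.prodMk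
      (T.continuous.comp ((S'.cont _).comp continuous_snd))))).enorm
  exact (h1.measurable.comp (hi.prodMap measurable_id)).pow_const 2

theorem meas_Tr (S : Side μ W) (S' : Side μ' W) (hi : Measurable i) (b T : K →L[ℂ] K) :
    Measurable fun n => S'.Tr (b * S.π (i n) * T) := (meas₂ S S' hi b T).lintegral_prod_right'

theorem lint_Tr [SFinite ν] (S : Side μ W) (S' : Side μ' W) (hi : Measurable i)
    (b T : K →L[ℂ] K) : ∫⁻ n, S'.Tr (b * S.π (i n) * T) ∂ν =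
      ∫⁻ g, ∫⁻ n, ‖b (S.π (i n) (T (S'.π g S'.Ω)))‖ₑ ^ 2 ∂ν ∂μ' :=
  lintegral_lintegral_swap (meas₂ S S' hi b T).aemeasurable

theorem Up.Tr [SFinite ν] {S : Side μ W} (h : Up S ν i b c) (S' : Side μ' W) (hi : Measurable i)
    (T : K →L[ℂ] K) : ∫⁻ n, S'.Tr (b * S.π (i n) * T) ∂ν ≤ c * S'.Tr T := by
  rw [lint_Tr S S' hi, Side.Tr, ← lintegral_const_mul _ (S'.meas_π T _)]
  exact lintegral_mono fun g => h _

theorem Lo.Tr [SFinite ν] {S : Side μ W} (h : Lo S ν i b c A) (S' : Side μ' W) (hi : Measurable i)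
    (T : K →L[ℂ] K) : c * S'.Tr (A * T) ≤ ∫⁻ n, S'.Tr (b * S.π (i n) * T) ∂ν := by
  rw [lint_Tr S S' hi, Side.Tr, ← lintegral_const_mul _ (S'.meas_π _ _)]
  exact lintegral_mono fun g => h _

theorem Tr_flip (C : Cpl μ μ' W) (hT : Cm W T) (h₁ : Cm W b₁) (h₂ : Cm W b₂) {g : G}
    (e : T * C.s.π g = C.s.π g * T) :
    C.t.Tr (b₂ * C.s.π g * (T * adjoint b₁)) =
      C.t.Tr (b₁ * C.s.π g⁻¹ * (adjoint T * adjoint b₂)) := by
  have hX := C.s.conj _ (cm_mul h₂ hT) g⁻¹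
  have e1 : b₂ * C.s.π g * (T * adjoint b₁) =
      C.s.π g * (C.s.π g⁻¹ * (b₂ * T) * C.s.π g⁻¹⁻¹ * adjoint b₁) := by
    rw [inv_inv]
    simp only [← mul_assoc, pi_mul_inv, one_mul]
    rw [mul_assoc b₂ T, e, mul_assoc b₂]
  have hY := cm_mul hX (C.adj_cm h₁)
  rw [e1, C.Tr_s_mul, ← C.tr_adj _ hY, ← C.Tr_mul_s (C.adj_cm hY) g⁻¹, adj_mul, adjoint_adjoint,
    Side.conj_adj, adj_mul, inv_inv]
  simp only [mul_assoc, pi_mul_inv, mul_one]

/-- **independence of the partition and traciality** -/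
theorem flip [SFinite ν] (C : Cpl μ μ' W) (hi : Measurable i) (hT : Cm W T) (h₁ : Cm W b₁)
    (h₂ : Cm W b₂) (e : ∀ n, T * C.s.π (i n) = C.s.π (i n) * T) {c' : ℝ≥0∞}
    (lo : Lo C.s ν i b₂ c' 1) (up : Up C.s ν (fun n => (i n)⁻¹) b₁ c) :
    c' * C.t.Tr (T * adjoint b₁) ≤ c * C.t.Tr (adjoint T * adjoint b₂) := by
  have h1 := lo.Tr C.t hi (T * adjoint b₁)
  rw [one_mul] at h1
  refine h1.trans (le_trans (le_of_eq ?_) (up.Tr C.t hi.inv _))
  exact lintegral_congr fun n => Tr_flip C hT h₁ h₂ (e n)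

theorem Lo.eq_zero {S : Side μ W} (lo : Lo S ν i b c 1) (hc : c ≠ 0)
    (e : ∀ n, T * S.π (i n) = S.π (i n) * T) (h : b * T = 0) : T = 0 := by
  ext ξ
  have h1 := lo (T ξ)
  have h2 : ∀ n, b (S.π (i n) (T ξ)) = 0 := fun n => by
    rw [← mul_ap (S.π (i n)), ← e, mul_ap, ← mul_ap b, h, zero_apply]
  simpa [h2, hc] using h1

/-- multiplication operators of the source -/
theorem lint_sm [SFinite ν] (S : Side μ W) (hi : Measurable i) {χ : G → ℂ} (hχ : Bd χ) (ξ : K) :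
    ∫⁻ n, ‖S.m χ (S.π (i n) ξ)‖ₑ ^ 2 ∂ν =
      ∫⁻ y, (∫⁻ n, ‖χ (i n * y)‖ₑ ^ 2 ∂ν) * ‖S.U ξ y‖ₑ ^ 2 ∂μ := by
  have bn : ∀ n, Bd fun y => χ (i n * y) := fun n => hχ.comp (measurable_const_mul _)
  have mχ : Measurable fun p : N × G => ‖χ (i p.1 * p.2)‖ₑ ^ 2 :=
    (hχ.meas.comp ((hi.comp measurable_fst).mul measurable_snd)).enorm.pow_const 2
  have e1 : ∀ n, ‖S.m χ (S.π (i n) ξ)‖ₑ ^ 2 =
      ∫⁻ y, ‖χ (i n * y)‖ₑ ^ 2 * ‖S.U ξ y‖ₑ ^ 2 ∂μ := fun n => by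
    have := S.cov hχ (i n)⁻¹
    rw [inv_inv] at this
    rw [← S.enorm_m (bn n) ξ, ← this, mul_ap, mul_ap, S.enorm_π]
  have h2 : AEMeasurable (Function.uncurry fun (n : N) (y : G) =>
      ‖χ (i n * y)‖ₑ ^ 2 * ‖S.U ξ y‖ₑ ^ 2) (ν.prod μ) := mχ.aemeasurable.mul
    ((meas_sq (S.U ξ)).comp_quasiMeasurePreserving Measure.quasiMeasurePreserving_snd)
  rw [lintegral_congr e1, lintegral_lintegral_swap h2]
  refine lintegral_congr fun y => ?_
  have h3 : Measurable fun n => ‖χ (i n * y)‖ₑ ^ 2 :=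
    (hχ.meas.comp (hi.mul_const y)).enorm.pow_const 2
  exact lintegral_mul_const _ h3

/-- coverings by translates -/
theorem lo_cover {Z : Type} [MeasurableSpace Z] [MulAction G Z] [MeasurableSMul₂ G Z] [SFinite ν]
    (S : Side μ W) (hi : Measurable i) {θ : POM Z K} (hθ : θ.IsP)
    (cov : ∀ g F, Bd F → S.π g * θ.f F * S.π g⁻¹ = θ.f fun z => F (g⁻¹ • z)) {L F : Set Z}
    (hL : MeasurableSet L) (hF : MeasurableSet F) (h : ∀ z ∈ L, c ≤ ν {n | i n • z ∈ F}) :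
    Lo S ν i (θ.P F) c (θ.P L) := fun ξ => by
  have mA : MeasurableSet {p : N × Z | i p.1 • p.2 ∈ F} :=
    ((hi.comp measurable_fst).smul measurable_snd) hF
  have e : ∀ n, ‖θ.P F (S.π (i n) ξ)‖ₑ ^ 2 = θ.ν ξ {z | i n • z ∈ F} := fun n => by
    have h1 := cov (i n)⁻¹ _ (bd_ind1 hF)
    rw [inv_inv] at h1
    rw [← hθ.enorm_P_sq (show MeasurableSet {z | i n • z ∈ F} from measurable_const_smul _ hF),
      ← S.enorm_π (i n)⁻¹]
    exact congrArg (fun X : K →L[ℂ] K => ‖X ξ‖ₑ ^ 2) h1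
  simp_rw [e]
  refine le_trans ?_ (le_of_eq (Measure.prod_apply (μ := ν) (ν := θ.ν ξ) mA))
  rw [Measure.prod_apply_symm mA, hθ.enorm_P_sq hL, ← lintegral_indicator_const hL]
  refine lintegral_mono fun z => ?_
  by_cases hz : z ∈ L
  · rw [indicator_of_mem hz]; exact h z hz
  · rw [indicator_of_notMem hz]; exact zero_le

end Vale.Agent.P092RE
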