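import Vale.Agent.P092RE.Grp
import Vale.Agent.P092RS.Defs

/-!
P092 (helper44): ergodicity of `A N × P'` on the coupling algebra in rank one.
-/

set_option linter.all false

open scoped InnerProductSpace ENNReal NNReal
open MeasureTheory Filter Topology ContinuousLinearMap Set

namespace Vale.Agent.P092RE

open Vale.Agent.P092.H793.Re Vale.Agent.P092RG Vale.Agent.P092CP Vale.Agent.P092RD
open Vale.Agent.P092RS
open Vale.Agent.P092.RC (Cm Moore)

variable {n n' : ℕ} {G G' K : Type} [Group G] [TopologicalSpace G] [IsTopologicalGroup G]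
  [LocallyCompactSpace G] [SecondCountableTopology G] [T2Space G] [MeasurableSpace G] [BorelSpace G]
  [Group G'] [TopologicalSpace G'] [IsTopologicalGroup G'] [LocallyCompactSpace G']
  [SecondCountableTopology G'] [T2Space G'] [MeasurableSpace G'] [BorelSpace G']
  [NormedAddCommGroup K] [InnerProductSpace ℂ K] [CompleteSpace K] {μ : Measure G}
  [μ.IsHaarMeasure] {μ' : Measure G'} [μ'.IsHaarMeasure] {W : Set (K →L[ℂ] K)}
  {ρ : G →* SLn n} {w : Fin n → ℝ} {ρ' : G' →* SLn n'} {w' : Fin n' → ℝ}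
  {h : R1 ρ w} {h' : R1 ρ' w'} {b x y T : K →L[ℂ] K}

/-- an exact partition of unity along `N` -/
def Ex (h : R1 ρ w) (S : Side μ W) (b : K →L[ℂ] K) : Prop :=
  ∀ ξ, ∫⁻ p : h.EN, ‖b (S.π (h.nE p) ξ)‖ₑ ^ 2 = ‖ξ‖ₑ ^ 2

theorem exists_ex (h : R1 ρ w) (S : Side μ W) : ∃ A, MeasurableSet A ∧ Ex h S (S.P A) := by
  obtain ⟨A, hA, h1⟩ := exists_chi h
  refine ⟨A, hA, fun ξ => ?_⟩
  rw [Side.P, lint_sm S h.measurable_nE (Bd.ind hA), S.enorm_U]
  simp only [h1, one_mul]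

theorem Ex.ni {S : Side μ W} (hb : Ex h S b) : NI h S b := fun ξ => (hb ξ).le

theorem Ex.lo {S : Side μ W} (hb : Ex h S b) : Lo S volume h.nE b 1 1 := fun ξ => by
  rw [one_mul, oapp, hb]

theorem ni_up {S : Side μ W} (hb : NI h S b) : Up S volume (fun p => (h.nE p)⁻¹) b 1 := fun ξ => by
  simp only [← h.nE_neg]
  rw [h.mp_neg.lintegral_comp (f := fun p => ‖b (S.π (h.nE p) ξ)‖ₑ ^ 2)
    ((S.meas_π b ξ).comp h.measurable_nE), one_mul]
  exact hb ξ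

/-- the trace per unit volume of `N` does not depend on the partition and is tracial -/
theorem Ex.flip (C : Cpl μ μ' W) (hb : Ex h C.s b) (cb : Cm W b) {b' : K →L[ℂ] K}
    (hb' : NI h C.s b') (cb' : Cm W b') (hT : Cm W T)
    (e : ∀ p, T * C.s.π (h.nE p) = C.s.π (h.nE p) * T) :
    C.t.Tr (T * adjoint b') ≤ C.t.Tr (adjoint T * adjoint b) := by
  simpa only [one_mul] using
    Vale.Agent.P092RE.flip C h.measurable_nE hT cb' cb e hb.lo (ni_up hb')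

theorem up_conj (C : Cpl μ μ' W) (hb : NI h C.s b) (u : ℝ) (g : G') :
    Up C.s volume (fun p => (h.nE p)⁻¹) (ad C.s.π (h.a u)⁻¹ (ad C.t.π g b)) (eo (-(h.Q * u))) :=
  fun ξ => by
  have e : ∀ p, ‖ad C.s.π (h.a u)⁻¹ (ad C.t.π g b) (C.s.π (h.nE p)⁻¹ ξ)‖ₑ ^ 2 =
      ‖b (C.s.π (h.nE (h.dil u (-p))) (C.t.π g⁻¹ (C.s.π (h.a u) ξ)))‖ₑ ^ 2 := fun p => by
    simp only [ad, mapp, C.s.enorm_π, C.t.enorm_π, inv_inv]
    rw [← mapp (C.s.π (h.nE _)), C.comm, mapp, pi_ap, pi_ap, ← h.a_mul_nE, h.nE_neg]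
  rw [lintegral_congr e, lint_dil h u (F := fun p => ‖b (C.s.π (h.nE p) _)‖ₑ ^ 2)
    ((C.s.meas_π b _).comp h.measurable_nE)]
  refine mul_le_mul_right ((hb _).trans_eq ?_) _
  rw [C.t.enorm_π, C.s.enorm_π]

theorem ad_comm {π : G →* (K →L[ℂ] K)} {g : G} : ad π g x = x ↔ x * π g = π g * x := by
  constructor
  · intro e
    conv_lhs => rw [← e, ad, mul_assoc, pi_inv_mul, mul_one]
  · intro e
    rw [ad, ← e, mul_assoc, pi_mul_inv, mul_one]

theorem ad_ad (S : Side μ W) (g g' : G) (x : K →L[ℂ] K) :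
    ad S.π g (ad S.π g' x) = ad S.π (g * g') x := S.conj_conj g g' x

theorem ad_adj (S : Side μ W) (g : G) (x : K →L[ℂ] K) :
    adjoint (ad S.π g x) = ad S.π g (adjoint x) := S.conj_adj g x

theorem ad_sub (π : G →* (K →L[ℂ] K)) (g : G) (x y : K →L[ℂ] K) :
    ad π g (x - y) = ad π g x - ad π g y := by simp only [ad, mul_sub, sub_mul]

theorem comm_ad (C : Cpl μ μ' W) {g : G} (e : x * C.s.π g = C.s.π g * x) (g' : G') :
    ad C.t.π g' x * C.s.π g = C.s.π g * ad C.t.π g' x := by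
  rw [ad, mul_assoc, ← C.comm, ← mul_assoc, mul_assoc _ x, e, ← mul_assoc, ← C.comm]
  simp only [mul_assoc]

theorem comm_adj (S : Side μ W) {g : G} (e : x * S.π g⁻¹ = S.π g⁻¹ * x) :
    adjoint x * S.π g = S.π g * adjoint x := by
  have := congrArg adjoint e
  rwa [adj_mul, adj_mul, S.adj, inv_inv, eq_comm] at this

/-- the renormalised estimate on one shadow -/
theorem shadow (C : Cpl μ μ' W) {θ : POM h'.Z K} (hθ : Th h h' C θ) (hb : Ex h C.s b)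
    (cb : Cm W b) (cy : Cm W y) (hy : ∀ g ∈ h.B, y * C.s.π g = C.s.π g * y) {L : Set h'.Z}
    (hL : MeasurableSet L) (u : ℝ) (k : G') :
    C.t.Tr (θ.P {z | h'.dl u ((h'.a u)⁻¹ • z) ∈ L} * C.t.π k * (adjoint y * adjoint b)) ≤
      eo (-(h.Q * u)) * C.t.Tr (y * C.t.π (k⁻¹ * h'.a u) * (θ.P L * adjoint b)) := by
  obtain ⟨g, rfl⟩ : ∃ g, k = h'.a u * g := ⟨_, (mul_inv_cancel_left _ k).symm⟩
  have e1 : θ.P {z | h'.dl u ((h'.a u)⁻¹ • z) ∈ L} =
      ad C.t.π (h'.a u) (ad C.s.π (h.a u) (θ.P L)) := by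
    rw [POM.P, POM.P, hθ.aa u _ (bd_ind1 hL), hθ.cov _ _
      ((Bd.ind hL).comp (h'.continuous_dl' u).measurable)]
    rfl
  have cL := hθ.cm _ (bd_ind1 hL)
  have hy' : ∀ g ∈ h.B, adjoint y * C.s.π g = C.s.π g * adjoint y := fun g hg =>
    comm_adj C.s (hy _ (h.B.inv_mem hg))
  have c1 : Cm W (θ.P L * ad C.t.π g (adjoint y)) := cm_mul cL (C.t.conj _ (C.adj_cm cy) g)
  have c2 : Cm W (ad C.s.π (h.a u)⁻¹ (ad C.t.π g b)) := C.s.conj _ (C.t.conj _ cb g) _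
  have h1 := flip C h.measurable_nE c1 c2 cb (fun p => by
    rw [mul_assoc, comm_ad C (hy' _ (h.N_le_B (h.nE_mem p))), ← mul_assoc, POM.P,
      ad_comm.1 (hθ.mn _ (h.N_le_MN (h.nE_mem p)) _ (bd_ind1 hL)), mul_assoc])
    hb.lo (up_conj C hb.ni u g)
  have e2 : θ.P {z | h'.dl u ((h'.a u)⁻¹ • z) ∈ L} * C.t.π (h'.a u * g) * (adjoint y * adjoint b) =
      C.t.π (h'.a u) * (C.s.π (h.a u) * (θ.P L * ad C.t.π g (adjoint y) *
        adjoint (ad C.s.π (h.a u)⁻¹ (ad C.t.π g b)) * C.s.π (h.a u)⁻¹ * C.t.π g)) := by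
    have a1 : ∀ X, C.t.π g⁻¹ * (C.s.π (h.a u)⁻¹ * X) = C.s.π (h.a u)⁻¹ * (C.t.π g⁻¹ * X) :=
      fun X => by rw [← mul_assoc, ← C.comm, mul_assoc]
    have a2 : ∀ X, C.s.π (h.a u)⁻¹ * (C.t.π g * X) = C.t.π g * (C.s.π (h.a u)⁻¹ * X) :=
      fun X => by rw [← mul_assoc, C.comm, mul_assoc]
    have a3 : ∀ X, C.s.π (h.a u)⁻¹ * (adjoint y * X) = adjoint y * (C.s.π (h.a u)⁻¹ * X) :=
      fun X => by rw [← mul_assoc, ← hy' _ (h.B.inv_mem (h.a_mem_B u)), mul_assoc]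
    have a4 : ∀ (g : G') X, C.t.π g⁻¹ * (C.t.π g * X) = X :=
      fun g X => by rw [← mul_assoc, pi_inv_mul, one_mul]
    have a5 : ∀ X, C.s.π (h.a u) * (C.s.π (h.a u)⁻¹ * X) = X :=
      fun X => by rw [← mul_assoc, pi_mul_inv, one_mul]
    rw [e1, ad_adj, ad_adj]
    simp only [ad, inv_inv, map_mul, mul_assoc, a4, a5, pi_inv_mul, mul_one]
    rw [a2, a3, a2, a4]
  have e3 : adjoint (θ.P L * ad C.t.π g (adjoint y)) * adjoint b =
      C.t.π g * (y * C.t.π ((h'.a u * g)⁻¹ * h'.a u) * (θ.P L * adjoint b)) := by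
    rw [adj_mul, ad_adj, adjoint_adjoint, ← star_eq_adjoint (θ.P L), θ.star_P hL, mul_inv_rev,
      inv_mul_cancel_right]
    simp only [ad, mul_assoc]
  rw [one_mul, e3, C.t.Tr_π_mul] at h1
  rwa [e2, C.t.Tr_π_mul, C.Tr_s_mul, C.t.Tr_mul_π, C.Tr_mul_s (cm_mul c1 (C.adj_cm c2))]

theorem tendsto_ad (S : Side μ' W) (hx : ∀ p ∈ h'.P, ad S.π p x = x) {g : G'} (hg : g ∉ h'.P)
    (ξ : K) : Tendsto (fun u => ad S.π ((h'.a u)⁻¹ * g) x ξ) atTop (𝓝 (ad S.π h'.w0 x ξ)) := by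
  obtain ⟨p, hp, h1⟩ := cell_dyn h' hg
  refine (((S.cont_conj x ξ).tendsto _).comp h1).congr fun u => ?_
  exact ap_eq ((ad_ad S _ _ x).symm.trans (by rw [hx _ (hp u)])) ξ

theorem erg (C : Cpl μ μ' W) (hQ : h'.Q ≤ h.Q) {θ : POM h'.Z K} (hθ : Th h h' C θ) :
    Erg h h' C := by
  intro x cx hs ht
  obtain ⟨A, hA, hb⟩ := exists_ex h C.s
  have cb := C.s.cm_P hA
  generalize C.s.P A = b at hb cb
  obtain ⟨R, c, h1⟩ := cover h'
  have ms : ∀ r, MeasurableSet {z | |h'.ht z| ≤ r} := fun r => (h'.isCompact_ht r).measurableSet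
  refine C.erg (moore_B h) ⟨cx, cp_of_conj fun g => sub_eq_zero.1 ?_⟩ fun g hg =>
    ad_comm.1 (hs g hg)
  change ad C.t.π g x - x = 0
  have cy : Cm W (ad C.t.π g x - x) := cm_sub (C.t.conj x cx g) cx
  have hy : ∀ g' ∈ h.B, (ad C.t.π g x - x) * C.s.π g' = C.s.π g' * (ad C.t.π g x - x) :=
    fun g' hg => by
      rw [sub_mul, mul_sub, comm_ad C (ad_comm.1 (hs g' hg)), ad_comm.1 (hs g' hg)]
  have hd : ∀ᵐ k ∂h'.νK, ∀ ξ, Tendsto (fun u => ad C.t.π ((h'.a u)⁻¹ * k) (ad C.t.π g x - x) ξ)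
      atTop (𝓝 0) := by
    filter_upwards [ae_cell h' g, ae_cell h' 1] with k h2 h3 ξ
    rw [mul_one] at h3
    have h4 := (tendsto_ad C.t ht h2 ξ).sub (tendsto_ad C.t ht h3 ξ)
    rw [sub_self] at h4
    exact h4.congr fun u => by rw [ad_sub, ad_ad, mul_assoc, sub_apply]
  generalize ad C.t.π g x - x = y at cy hy hd
  have key : ∀ r : ℝ, θ.P {z | |h'.ht z| ≤ r} * (adjoint y * adjoint b) = 0 := fun r => by
    obtain ⟨c₀, hc₀, h2⟩ := hθ.fin _ (h'.isCompact_ht (R + r))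
    have h3 := h2 b cb hb.ni
    have cY : Cm W (θ.P {z | |h'.ht z| ≤ R + r} * adjoint b) :=
      cm_mul (hθ.cm _ (bd_ind1 (ms _))) (C.adj_cm cb)
    have h4 : ∀ u : ℝ, 0 ≤ u → eo (-c) * C.t.Tr (θ.P {z | |h'.ht z| ≤ r} * (adjoint y * adjoint b))
        ≤ ∫⁻ k, C.t.Tr (y * C.t.π (k⁻¹ * h'.a u) * (θ.P {z | |h'.ht z| ≤ R + r} * adjoint b))
          ∂h'.νK := fun u hu => by
      have h5 := (lo_cover C.t (ν := h'.νK) measurable_id hθ.isP hθ.cov (ms r)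
        (F := {z | h'.dl u ((h'.a u)⁻¹ • z) ∈ {z | |h'.ht z| ≤ R + r}})
        (((h'.continuous_dl' u).comp (continuous_const_smul _)).measurable (ms _))
        (h1 r u hu)).Tr C.t measurable_id (adjoint y * adjoint b)
      have h6 := h5.trans (lintegral_mono fun k => shadow C hθ hb cb cy hy (ms _) u k)
      rw [lintegral_const_mul' _ _ (eo_ne_top _), sub_eq_add_neg, add_comm, eo_add,
        mul_assoc] at h6
      refine (ENNReal.mul_le_mul_iff_right (eo_ne_zero _) (eo_ne_top _)).1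
        (h6.trans (mul_le_mul_left (eo_mono (neg_le_neg ?_)) _))
      exact mul_le_mul_of_nonneg_right (Nat.cast_le.2 hQ) hu
    have h5 := tendsto_lintegral_filter_of_dominated_convergence (μ := h'.νK) (l := atTop)
      (F := fun (u : ℝ) k => C.t.Tr (y * C.t.π (k⁻¹ * h'.a u) *
        (θ.P {z | |h'.ht z| ≤ R + r} * adjoint b))) (f := fun _ => 0) (fun _ => ‖y‖ₑ ^ 2 * c₀)
      (Eventually.of_forall fun u => meas_Tr C.t C.t (measurable_inv.mul_const _) _ _)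
      (Eventually.of_forall fun u => Eventually.of_forall fun k => by
        rw [mul_assoc]
        refine (C.t.Tr_mul_le _ _).trans ?_
        rw [C.t.Tr_π_mul]
        exact mul_le_mul_right h3 _)
      (by rw [lintegral_const, measure_univ, mul_one]; finiteness)
      (hd.mono fun k hk => (C.t.tendsto_Tr_mul (C := ‖y‖) (Eventually.of_forall fun u =>
        ⟨C.t.conj y cy _, C.t.norm_conj_le _ y⟩) hk cY (ne_top_of_le_ne_top hc₀ h3)).congr
        fun u => by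
          rw [mul_assoc, mul_assoc, C.t.Tr_π_mul, mul_inv_rev, inv_inv, mul_assoc])
    rw [lintegral_zero] at h5
    have h6 := ge_of_tendsto h5 ((eventually_ge_atTop 0).mono h4)
    exact C.tr_zero _ (cm_mul (hθ.cm _ (bd_ind1 (ms r))) (cm_mul (C.adj_cm cy) (C.adj_cm cb)))
      ((mul_eq_zero.1 (le_zero_iff.1 h6)).resolve_left (eo_ne_zero _))
  refine hb.lo.eq_zero one_ne_zero (fun p => hy _ (h.N_le_B (h.nE_mem p))) ?_
  have h2 : adjoint y * adjoint b = 0 := by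
    ext ξ
    have h3 := θ.tendsto_P_iUnion (s := fun m : ℕ => {z | |h'.ht z| ≤ m}) (fun m => ms m)
      (fun i j hij z hz => le_trans (α := ℝ) hz (Nat.cast_le.2 hij)) ((adjoint y * adjoint b) ξ)
    rw [eq_univ_of_forall (s := ⋃ m : ℕ, {z | |h'.ht z| ≤ m}) fun z =>
      mem_iUnion.2 (by exact exists_nat_ge |h'.ht z|), hθ.isP.P_univ, oapp] at h3
    exact tendsto_nhds_unique h3 (tendsto_const_nhds.congr fun m => (ap_eq (key m) ξ).symm)
  rw [← adjoint_adjoint (b * y), adj_mul, h2, map_zero]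

/-- **block ERG** -/
theorem berg : BERG := fun h h' C _ _ hQ θ hθ => erg C hQ.ge hθ

end Vale.Agent.P092RE
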