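import Vale.Agent.P092RE.NT
import Vale.Agent.P092RG.Cell

/-!
P092 (helper44): rank one group facts: Moore ergodicity of the torus, a partition of unity along
`N`, coverings of the cone by shadows.
-/

set_option linter.all false

open scoped InnerProductSpace ENNReal NNReal
open MeasureTheory Filter Topology ContinuousLinearMap Set

namespace Vale.Agent.P092RE

open Vale.Agent.P092.H793.Re Vale.Agent.P092RG Vale.Agent.P092CP Vale.Agent.P092RD
open Vale.Agent.P092.RC (Cm Moore)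

variable {n : ℕ} {G : Type} [Group G] [TopologicalSpace G] {ρ : G →* SLn n} {w : Fin n → ℝ}
  (h : R1 ρ w)

theorem tendsto_dil (p : h.EN) : Tendsto (fun u : ℝ => h.dil (-u) p) atTop (𝓝 0) := by
  have h1 : Tendsto (fun u : ℝ => Real.exp (-u)) atTop (𝓝 0) := Real.tendsto_exp_neg_atTop_nhds_zero
  have h2 : Tendsto (fun u : ℝ => Real.exp (2 * -u)) atTop (𝓝 0) := by
    simpa only [two_mul, Real.exp_add, mul_zero] using h1.mul h1
  have h3 := (h1.smul_const p.1).prodMk_nhds (h2.smul_const p.2)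
  rwa [zero_smul, zero_smul] at h3

theorem tendsto_conj {x : G} (hx : x ∈ h.N) :
    Tendsto (fun u : ℝ => (h.a u)⁻¹ * x * h.a u) atTop (𝓝 1) := by
  have h1 := (h.continuous_nE.tendsto 0).comp (tendsto_dil h (h.nC x))
  rw [h.nE_zero] at h1
  refine h1.congr fun u => ?_
  rw [Function.comp, ← h.a_conj_nE, h.nE_nC hx, h.a_neg, inv_inv]

/-- the torus is ergodic -/
theorem moore_a : Moore (range h.a) := by
  intro E _ _ _ u h1 h2 ξ h3
  haveI := topGroup h.rs.emb
  have ha : ∀ s, u (h.a s) ξ = ξ := fun s => h3 _ ⟨s, rfl⟩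
  have key : ∀ (x : G) (r : ℝ → ℝ),
      Tendsto (fun s : ℝ => (h.a (r s))⁻¹ * x * h.a (r s)) atTop (𝓝 1) → u x ξ = ξ := by
    intro x r hx
    have h4 := (((h2 ξ).tendsto 1).comp hx).sub_const ξ |>.norm
    rw [map_one, oapp, sub_self, norm_zero] at h4
    refine sub_eq_zero.1 (norm_eq_zero.1 (tendsto_nhds_unique tendsto_const_nhds
      (h4.congr fun s => ?_)))
    rw [Function.comp, ← h1 (h.a (r s)), map_sub, ha, ← mapp, ← map_mul, ← mul_assoc,
      mul_inv_cancel_left, map_mul, mapp, ha]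
  let H : Subgroup G :=
    { carrier := {g | u g ξ = ξ}
      one_mem' := by rw [mem_setOf_eq, map_one, oapp]
      mul_mem' := fun {a b} (ha : u a ξ = ξ) (hb : u b ξ = ξ) => by
        rw [mem_setOf_eq, map_mul, mapp, hb, ha]
      inv_mem' := fun {a} (ha : u a ξ = ξ) => by
        rw [mem_setOf_eq]
        conv_lhs => rw [← ha, ← mapp, ← map_mul, inv_mul_cancel, map_one, oapp] }
  have h5 : h.N ⊔ h.Nb ≤ H := sup_le (fun x hx => key x id (tendsto_conj h hx)) fun x hx =>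
    key x (fun s => -s) (by
      have h6 := ((tendsto_conj h (h.mem_Nb.1 hx)).const_mul h.w0).mul_const h.w0⁻¹
      rw [mul_one, mul_inv_cancel] at h6
      refine h6.congr fun s => ?_
      rw [h.a_neg_eq]
      group)
  exact fun g => h5 (h.gen_N_Nb ▸ Subgroup.mem_top g)

theorem moore_B : Moore (h.B : Set G) := fun E _ _ _ u h1 h2 ξ h3 =>
  moore_a h E u h1 h2 ξ fun _ ⟨s, e⟩ => e ▸ h3 _ (h.a_mem_B s)

theorem iu_mul_N (g : G) {u : G} (hu : u ∈ h.N) : h.iu (g * u) = h.iu g * u := by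
  conv_lhs => rw [← h.iwa_eq g, mul_assoc]
  exact h.iu_kan (h.ik_mem g) _ (h.N.mul_mem (h.iu_mem g) hu)

theorem cell_dyn {g : G} (hg : g ∉ h.P) : ∃ p : ℝ → G, (∀ u, p u ∈ h.P) ∧
    Tendsto (fun u => (h.a u)⁻¹ * g * p u) atTop (𝓝 h.w0) := by
  haveI := topGroup h.rs.emb
  obtain ⟨x, hx, p, hp, rfl⟩ := (h.bruhat g).resolve_left hg
  refine ⟨fun u => p⁻¹ * (h.a u)⁻¹, fun u => h.P.mul_mem (h.P.inv_mem hp)
    (h.P.inv_mem (h.a_mem_P u)), ?_⟩
  have h1 := (tendsto_conj h hx).mul_const h.w0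
  rw [one_mul] at h1
  refine h1.congr fun u => ?_
  have h2 := h.w0_a (-u)
  rw [neg_neg, h.a_neg] at h2
  simp only [mul_assoc, mul_inv_cancel_left, h2]

variable [IsTopologicalGroup G] [SecondCountableTopology G] [MeasurableSpace G] [BorelSpace G]

/-- a partition of unity along `N` -/
theorem exists_chi : ∃ A : Set G, MeasurableSet A ∧
    ∀ y, ∫⁻ p, ‖A.indicator (1 : G → ℂ) (h.nE p * y)‖ₑ ^ 2 = 1 := by
  let S : Set h.EN := parallelepiped (EuclideanSpace.basisFun (Fin h.m1) ℝ) ×ˢ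
    parallelepiped (EuclideanSpace.basisFun (Fin h.m2) ℝ)
  have c : ∀ m, IsCompact (parallelepiped (EuclideanSpace.basisFun (Fin m) ℝ)) := fun m =>
    (EuclideanSpace.basisFun (Fin m) ℝ).toBasis.parallelepiped.isCompact
  have hS : MeasurableSet S := ((c _).prod (c _)).measurableSet
  have h1 : volume S = 1 := by
    rw [Measure.volume_eq_prod, Measure.prod_prod, OrthonormalBasis.volume_parallelepiped,
      OrthonormalBasis.volume_parallelepiped, one_mul]
  have hc : Continuous fun y : G => h.nC (h.iu y⁻¹) :=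
    h.continuous_nC.comp (h.continuous_iu.comp continuous_inv)
  refine ⟨{y | h.nC (h.iu y⁻¹) ∈ S}, hc.measurable hS, fun y => ?_⟩
  have h2 := (h.mp_mulE_left (h.nC (h.iu y⁻¹))).comp h.mp_neg
  rw [← h1, ← h2.measure_preimage hS.nullMeasurableSet,
    ← lintegral_indicator_one (h2.measurable hS)]
  refine lintegral_congr fun p => ?_
  have e : h.nC (h.iu (h.nE p * y)⁻¹) = h.mulE (h.nC (h.iu y⁻¹)) (-p) := by
    rw [mul_inv_rev, ← h.nE_neg, iu_mul_N h _ (h.nE_mem _), h.nC_mul (h.iu_mem _) (h.nE_mem _),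
      h.nC_nE]
  by_cases hp : h.mulE (h.nC (h.iu y⁻¹)) (-p) ∈ S
  · rw [indicator_of_mem (by rwa [mem_setOf_eq, e]), indicator_of_mem (by exact hp)]; simp
  · rw [indicator_of_notMem (by rwa [mem_setOf_eq, e]), indicator_of_notMem (by exact hp)]; simp

/-- a strip of the cone is covered by shadows -/
theorem cover : ∃ R c : ℝ, ∀ r u : ℝ, 0 ≤ u → ∀ z, |h.ht z| ≤ r →
    eo (-c - h.Q * u) ≤ h.νK {k | |h.ht (h.dl u ((h.a u)⁻¹ • k • z))| ≤ R + r} := by
  obtain ⟨R, -, h1⟩ := h.near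
  obtain ⟨c, h2⟩ := h.le_shadow
  refine ⟨R, c, fun r u hu z hz => (h2 u hu).trans ?_⟩
  obtain ⟨κ, hκ, e⟩ := h.exists_Ka z
  rw [← (h.hpK.mp_right hκ).measure_preimage (h.isClosed_shadow _).measurableSet.nullMeasurableSet]
  refine measure_mono_ae ?_
  filter_upwards [h.hpK.ae] with k hk hk'
  have h3 := (h.abs_hs_le _).trans (h1 _ (h.K.mul_mem hk hκ) u hu hk')
  show |h.ht _| ≤ _
  rw [← e, h.smul_mkZ, h.smul_mkZ, h.ht_dl, h.ht_mk, ← mul_assoc, ← mul_assoc, h.hs_mul_a]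
  rw [h.hs_mul_a, h.a_neg, ← mul_assoc] at h3
  rw [add_right_comm]
  exact (abs_add_le _ _).trans (add_le_add h3 hz)

theorem ae_cell (g : G) : ∀ᵐ k ∂h.νK, k * g ∉ h.P := by
  filter_upwards [h.hpK.mp_inv.quasiMeasurePreserving.ae (h.ae_bd_pos g⁻¹)] with k hk hk'
  rw [← mul_inv_rev, h.bd_inv, h.bd_P hk'] at hk
  exact lt_irrefl _ hk

theorem lint_dil (u : ℝ) {F : h.EN → ℝ≥0∞} (hF : Measurable F) :
    ∫⁻ p, F (h.dil u (-p)) = eo (-(h.Q * u)) * ∫⁻ p, F p := by
  rw [h.mp_neg.lintegral_comp (f := fun p => F (h.dil u p)) (hF.comp (h.measurable_dil u)),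
    ← lintegral_map hF (h.measurable_dil u), h.map_dil, lintegral_smul_measure]
  rfl

end Vale.Agent.P092RE
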