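import Vale.Agent.P092RE.Grp

/-!
P092 (helper44): rank one, the unipotent radical is ergodic.
-/

set_option linter.all false

open Filter Topology Set

namespace Vale.Agent.P092RE

open Vale.Agent.P092.H793.Re Vale.Agent.P092RG Vale.Agent.P092RD
open Vale.Agent.P092.RC (Moore)

variable {n : ℕ} {G : Type} [Group G] [TopologicalSpace G] {ρ : G →* SLn n} {w : Fin n → ℝ}
  (h : R1 ρ w)

theorem tendsto_conj_Nb {x : G} (hx : x ∈ h.Nb) :
    Tendsto (fun s : ℝ => h.a s * x * (h.a s)⁻¹) atTop (𝓝 1) := by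
  haveI := topGroup h.rs.emb
  have h6 := ((tendsto_conj h (h.mem_Nb.1 hx)).const_mul h.w0).mul_const h.w0⁻¹
  rw [mul_one, mul_inv_cancel] at h6
  refine h6.congr fun s => ?_
  have e := h.a_neg_eq s
  rw [h.a_neg, inv_eq_iff_eq_inv] at e
  conv_rhs => rw [e]
  group

theorem moore_N : Moore (h.N : Set G) := by
  intro E _ _ _ u h1 h2 ξ h3
  refine moore_a h E u h1 h2 ξ ?_
  rintro _ ⟨s, rfl⟩
  obtain ⟨x, hx, hx'⟩ : ∃ x ∈ h.Nb, x ∉ h.P := by
    by_contra h4
    push Not at h4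
    exact h.w0_not_mem (sup_le h.N_le_P h4 (h.gen_N_Nb ▸ Subgroup.mem_top h.w0))
  obtain ⟨v, hv, t, m, hm, v', hv', rfl⟩ := (h.bruhat' x).resolve_left hx'
  have h4 := (((h2 ξ).tendsto 1).comp (tendsto_conj_Nb h hx)).sub_const ξ |>.norm
  rw [map_one, oapp, sub_self, norm_zero] at h4
  have h5 : Tendsto (fun j : ℝ => ‖u (h.w0 * m * h.a (t - 2 * j)) ξ - ξ‖) atTop (𝓝 0) := by
    refine h4.congr fun j => ?_
    have e : h.a j * (v * h.w0 * h.a t * m * v') * (h.a j)⁻¹ = (h.a j * v * (h.a j)⁻¹) *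
        (h.w0 * m * h.a (t - 2 * j) * (h.a j * v' * (h.a j)⁻¹)) := by
      have e1 : ∀ X, h.w0 * ((h.a j)⁻¹ * X) = h.a j * (h.w0 * X) := fun X => by
        rw [← mul_assoc, ← h.a_neg, h.w0_a, neg_neg, mul_assoc]
      have e2 : ∀ r X, m * (h.a r * X) = h.a r * (m * X) := fun r X => by
        rw [← mul_assoc, h.L_comm_a hm.2, mul_assoc]
      rw [show t - 2 * j = -j + (t + -j) by ring, h.a_add, h.a_add]
      simp only [mul_assoc, e2]
      simp only [h.a_neg, e1, inv_mul_cancel_left]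
    have a1 := h3 _ (h.conj_N (h.a_mem_P j) hv)
    have a2 := h3 _ (h.conj_N (h.a_mem_P j) hv')
    rw [Function.comp, e]
    generalize h.a j * v * (h.a j)⁻¹ = x at a1
    generalize h.a j * v' * (h.a j)⁻¹ = x' at a2
    rw [map_mul, mapp, map_mul, mapp, a2]
    conv_lhs => rw [← a1, ← map_sub, a1, h1]
  have h6 := (h5.comp (tendsto_atTop_add_const_right atTop (-(s / 2)) tendsto_id)).add h5
  rw [add_zero] at h6
  refine sub_eq_zero.1 (norm_le_zero_iff.1 (ge_of_tendsto' h6 fun j => ?_))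
  rw [← h1 (h.w0 * m * h.a (t - 2 * j)), map_sub, ← mapp, ← map_mul, mul_assoc, ← h.a_add,
    Function.comp, id, show t - 2 * (j + -(s / 2)) = t - 2 * j + s by ring, norm_sub_rev _ ξ,
    norm_sub_rev (u (h.w0 * m * h.a (t - 2 * j)) ξ) ξ]
  exact (norm_sub_le_norm_sub_add_norm_sub _ ξ _).trans_eq (by rw [norm_sub_rev])

end Vale.Agent.P092RE
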